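import Vale.Agent.P144Z.I1.KW
import Vale.Agent.P144Z.I2.Cont

/-!
Contours with corner insertions: the bound on the weights and the parity rule.
-/

namespace Vale.Agent.P144Z.DH3

open Finset Matrix I1

set_option linter.unusedSectionVars false

section Words

variable {S : Type} [Fintype S] [DecidableEq S]

/-- a word in the generators -/
noncomputable def mo (l : List S) : Gr S := (l.map gen).prod

theorem mo_nil : mo ([] : List S) = 1 := rfl

theorem mo_cons (s : S) (l : List S) : mo (s :: l) = gen s * mo l := by simp [mo]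

theorem mo_snoc (s : S) (l : List S) : mo (l ++ [s]) = mo l * gen s := by simp [mo]

theorem mo_mem {T : Set S} {l : List S} (h : ∀ s ∈ l, s ∈ T) : mo l ∈ loc T := by
  induction l with
  | nil => exact (loc T).one_mem
  | cons s l ih =>
    rw [mo_cons]
    exact (loc T).mul_mem (A1.gen_mem (h s List.mem_cons_self))
      (ih fun t ht => h t (List.mem_cons_of_mem _ ht))

theorem gen_mo (s : S) (l : List S) (F : Gr S) :
    gen s * (mo l * F) = ((-1 : ℝ) ^ l.length) • (mo l * (gen s * F)) := by
  induction l with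
  | nil => simp [mo_nil]
  | cons t l ih =>
    rw [mo_cons, mul_assoc, gen_swap, ih, mul_smul_comm, mul_assoc, List.length_cons, pow_succ,
      mul_neg_one, neg_smul]

theorem mo_split (p : S → Bool) (l : List S) :
    ∃ c : ℝ, |c| = 1 ∧ mo l = c • (mo (l.filter p) * mo (l.filter fun s => !p s)) := by
  induction l with
  | nil => exact ⟨1, abs_one, by simp [mo_nil]⟩
  | cons s l ih =>
    obtain ⟨c, hc, h⟩ := ih
    cases hp : p s
    · refine ⟨c * (-1) ^ (l.filter p).length, by simp [abs_mul, hc], ?_⟩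
      rw [List.filter_cons_of_neg (by simp [hp]), List.filter_cons_of_pos (by simp [hp]), mo_cons,
        mo_cons, h, mul_smul_comm, gen_mo, smul_smul]
    · refine ⟨c, hc, ?_⟩
      rw [List.filter_cons_of_pos hp, List.filter_cons_of_neg (by simp [hp]), mo_cons, mo_cons, h,
        mul_smul_comm, mul_assoc]

theorem gen_mo_zero {s : S} {l : List S} (h : s ∈ l) : gen s * mo l = 0 := by
  induction l with
  | nil => simp at h
  | cons t l ih =>
    rw [mo_cons]
    rcases List.mem_cons.1 h with rfl | h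
    · exact gen_gen _ _
    · rw [gen_swap, ih h, mul_zero, neg_zero]

theorem mo_dup {l : List S} (h : ¬ l.Nodup) : mo l = 0 := by
  induction l with
  | nil => simp at h
  | cons t l ih =>
    rw [mo_cons]
    by_cases ht : t ∈ l
    · exact gen_mo_zero ht
    · rw [ih fun h' => h (List.nodup_cons.2 ⟨ht, h'⟩), mul_zero]

/-- the covariance of a site with integer values -/
def gZ (a b : Fin 4) : ℤ := ![![0, 1, -1, 1], ![-1, 0, 1, -1], ![1, -1, 0, 1], ![-1, 1, -1, 0]] a b

theorem gA_gZ (a b : Fin 4) : gA a b = gZ a b := by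
  rw [gA_eq]
  fin_cases a <;> fin_cases b <;> simp [gZ]

theorem gZ2 : ∀ a b : Fin 4, |gZ a b| ≤ 1 := by decide

theorem gZ4 : ∀ a b c d : Fin 4, |gZ a b * gZ c d - gZ a c * gZ b d + gZ a d * gZ b c| ≤ 1 := by
  decide

theorem om_site {C : Matrix S S ℝ} (hC : Cᵀ = -C) (φ : Fin 4 → S)
    (hφ : ∀ a b, C (φ a) (φ b) = gA a b) (l : List (Fin 4)) : |om C (mo (l.map φ))| ≤ 1 := by
  by_cases hl : l.Nodup
  swap
  · rw [mo_dup fun h => hl (List.Nodup.of_map _ h)]
    simp
  have h4 : l.length ≤ 4 := by simpa using hl.length_le_card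
  have d1 : ∀ (v : S → ℝ) (s : S), del v (gen s) = v s • (1 : Gr S) := fun v s => by
    simpa [A1.del_one] using A1.del_gen_mul v s 1
  rcases l with _ | ⟨a, _ | ⟨b, _ | ⟨c, _ | ⟨d, _ | ⟨e, l⟩⟩⟩⟩⟩
  · simp [mo_nil, om_one]
  · simp only [List.map, mo_cons, mo_nil, om_gen_mul hC, A1.del_one, map_zero]
    simp
  · simp only [List.map, mo_cons, mo_nil, om_gen_mul hC, A1.del_gen_mul, A1.del_one, map_smul,
      mul_zero, sub_zero, om_one, hφ, gA_gZ, smul_eq_mul, mul_one, d1]
    exact_mod_cast gZ2 a b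
  · simp only [List.map, mo_cons, mo_nil, om_gen_mul hC, A1.del_gen_mul, A1.del_one, map_smul,
      mul_zero, sub_zero, map_sub, mul_smul_comm, map_zero, smul_zero]
    simp
  · simp only [List.map, mo_cons, mo_nil, om_gen_mul hC, A1.del_gen_mul, A1.del_one, map_smul,
      mul_zero, sub_zero, map_sub, mul_smul_comm, mul_sub, om_one, hφ, gA_gZ, smul_eq_mul,
      mul_one, d1, smul_zero]
    have h := gZ4 a b c d
    have h' : |((gZ a b * gZ c d - gZ a c * gZ b d + gZ a d * gZ b c : ℤ) : ℝ)| ≤ 1 := by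
      exact_mod_cast h
    refine le_of_eq_of_le (congrArg abs ?_) h'
    push_cast
    ring
  · simp only [List.length_cons] at h4
    omega

end Words

variable (g : Geo)

/-- the ultralocal expectation -/
noncomputable abbrev o0 : Gr g.S →ₗ[ℝ] ℝ := om (g.exM (gM g.M))

theorem anti0 : (g.exM (gM g.M))ᵀ = -g.exM (gM g.M) := I2.exM_anti g gM_anti

theorem o0_mo (l : List g.S) : |o0 g (mo l)| ≤ 1 := by
  induction hn : l.length using Nat.strong_induction_on generalizing l with
  | _ k ih =>
  rcases l with _ | ⟨s, l⟩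
  · simp [mo_nil, om_one]
  rcases s with ⟨x, a⟩ | s
  · let p : g.S → Bool := fun t => decide (t ∈ Set.range fun b : Fin 4 => (Sum.inl (x, b) : g.S))
    obtain ⟨c, hc, h⟩ := mo_split p (Sum.inl (x, a) :: l)
    obtain ⟨l', hl'⟩ : (Sum.inl (x, a) :: l).filter p ∈
        Set.range (List.map fun b : Fin 4 => (Sum.inl (x, b) : g.S)) := by
      rw [Set.range_list_map]
      intro t ht
      simpa [p] using (List.mem_filter.1 ht).2
    have h1 := om_site (anti0 g) (fun b : Fin 4 => (Sum.inl (x, b) : g.S))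
      (fun a b => if_pos rfl) l'
    rw [hl'] at h1
    have h2 := ih _ (by
      rw [← hn, List.filter_cons_of_neg (by simp [p]), List.length_cons]
      exact Nat.lt_succ_of_le (List.length_filter_le _ _))
      ((Sum.inl (x, a) :: l).filter fun s => !p s) rfl
    rw [h, map_smul, smul_eq_mul, abs_mul, hc, one_mul, om_apply,
      gauss_mul (anti0 g) (T := {t | p t = true}) (T' := {t | p t = false})
        (mo_mem fun t ht => (List.mem_filter.1 ht).2)
        (mo_mem fun t ht => by simpa using (List.mem_filter.1 ht).2), map_mul, abs_mul]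
    · exact mul_le_one₀ h1 (abs_nonneg _) h2
    · intro s hs t ht
      obtain ⟨b, rfl⟩ : ∃ b, Sum.inl (x, b) = s := by simpa [p] using hs
      rcases t with ⟨y, b'⟩ | t
      · refine if_neg fun e : x = y => ?_
        subst e
        simp [p] at ht
      · rfl
  · have : g.exM (gM g.M) (Sum.inr s) = 0 := by
      funext t
      rcases t with t | t <;> rfl
    rw [mo_cons, om_gen_mul (anti0 g), this, A1.del_zero_left, map_zero, abs_zero]
    exact zero_le_one

/-- bounded in all words -/
def Bw (K : ℝ) (F : Gr g.S) : Prop := ∀ l, |o0 g (mo l * F)| ≤ K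

variable {g}

theorem Bw.gen {K : ℝ} {F : Gr g.S} (h : Bw g K F) (s : g.S) : Bw g K (gen s * F) := fun l => by
  rw [← mul_assoc, ← mo_snoc]
  exact h _

theorem psi_cnr (x : Tor g.M) : psi (g.ex (cnr x)) =
    ∑ a : Fin 4, (if a = 0 then (-1 : ℝ) else 1) • gen (Sum.inl (x, a) : g.S) := by
  rw [A1.psi_eq_sum, Fintype.sum_sum_type, Fintype.sum_prod_type, Finset.sum_eq_single x]
  · simp [Geo.ex, cnr]
  · intro y _ hy
    simp [Geo.ex, cnr, hy]
  · simp

theorem Bw.cnr {K : ℝ} {F : Gr g.S} (h : Bw g K F) (x : Tor g.M) :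
    Bw g (4 * K) (psi (g.ex (cnr x)) * F) := fun l => by
  rw [psi_cnr, Finset.sum_mul, Finset.mul_sum, map_sum]
  refine (Finset.abs_sum_le_sum_abs _ _).trans ((Finset.sum_le_sum (g := fun _ => K)
    fun a _ => ?_).trans (by simp))
  rw [smul_mul_assoc, mul_smul_comm, map_smul, smul_eq_mul, abs_mul]
  have : |if a = 0 then (-1 : ℝ) else 1| = 1 := by split_ifs <;> simp
  rw [this, one_mul]
  exact h.gen _ l

/-- the field at the start of an edge -/
def fa (g : Geo) (e : Tor g.M × Fin 2) : g.S := Sum.inl (e.1, if e.2 = 0 then 0 else 1)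

/-- the field at the end of an edge -/
def fb (g : Geo) (e : Tor g.M × Fin 2) : g.S :=
  Sum.inl (e.1 + uv g.M e.2, if e.2 = 0 then 2 else 3)

/-- the corner insertions -/
noncomputable def ins (g : Geo) {p : ℕ} (X : Fin p × Fin 2 → Tor g.M) : g.E :=
  ∏ i, pp (g.ex (cnr (X (i, 0)))) (g.ex (cnr (X (i, 1))))

/-- the weight of a set of edges with corner insertions -/
noncomputable def cwX (g : Geo) {p : ℕ} (X : Fin p × Fin 2 → Tor g.M)
    (n : Tor g.M × Fin 2 → Bool) : ℝ := o0 g (Ev.val (mono (fa g) (fb g) n * ins g X))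

theorem abs_cwX {p : ℕ} (X : Fin p × Fin 2 → Tor g.M) (n : Tor g.M × Fin 2 → Bool) :
    |cwX g X n| ≤ 16 ^ p := by
  have h1 : ∀ s : Finset (Fin p), Bw g (16 ^ s.card)
      (Ev.val (∏ i ∈ s, pp (g.ex (cnr (X (i, 0)))) (g.ex (cnr (X (i, 1)))))) := by
    intro s
    induction s using Finset.induction_on with
    | empty => exact fun l => by simpa using o0_mo g l
    | insert i s hi ih =>
      rw [prod_insert hi, map_mul, val_pp, mul_assoc, card_insert_of_notMem hi, pow_succ,
        show (16 : ℝ) ^ s.card * 16 = 4 * (4 * 16 ^ s.card) by ring]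
      exact (ih.cnr _).cnr _
  have h2 : ∀ s : Finset (Tor g.M × Fin 2), Bw g (16 ^ p) (Ev.val ((∏ e ∈ s, if n e then
      pp (Pi.single (fa g e) 1) (Pi.single (fb g e) 1) else 1) * ins g X)) := by
    intro s
    induction s using Finset.induction_on with
    | empty => simpa [ins] using h1 univ
    | insert e s he ih =>
      rw [prod_insert he, mul_assoc]
      split_ifs
      · rw [map_mul, val_pp, mul_assoc]
        exact (ih.gen _).gen _
      · rwa [one_mul]
  have := h2 univ []
  rwa [mo_nil, one_mul] at this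

theorem Om_ins {p : ℕ} (X : Fin p × Fin 2 → Tor g.M) :
    aug (Ev.val (g.Om (ins g X))) = ∑ n, wt g.A tc n * cwX g X n := by
  have h := I2.E0_exp g tc 1
  rw [I2.E0_one, mul_one] at h
  rw [Geo.Om, I2.val_noF, aug_map, val_evG, ← om_apply, h, Finset.sum_mul, map_sum, map_sum]
  refine Finset.sum_congr rfl fun n _ => ?_
  have e : (∏ e : Tor g.M × Fin 2, if n e then tc • g.edge e.1 e.2 else 1) =
      wt g.A tc n • mono (fa g) (fb g) n := by
    rw [wt, mono, ← Finset.prod_smul]
    refine Finset.prod_congr rfl fun e _ => ?_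
    split_ifs
    · rw [Geo.edge, smul_smul]
      rfl
    · rw [one_smul]
  rw [Pi.one_apply, one_mul, e, smul_mul_assoc, map_smul, map_smul, smul_eq_mul]
  rfl

/-- the product of the signs of the four edges at a point -/
def bd {M : ℕ} (s : Gauge M) (z : Tor M) : ℝ :=
  s (z, 0) * s (z, 1) * (s (z - uv M 0, 0) * s (z - uv M 1, 1))

theorem bd_cwX {p : ℕ} {X : Fin p × Fin 2 → Tor g.M} {n : Tor g.M × Fin 2 → Bool}
    (h : cwX g X n ≠ 0) (z : Tor g.M) :
    bd (fun e => sgn (n e)) z * ∏ a, (if X a = z then (-1 : ℝ) else 1) = 1 := by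
  let σ : Tor g.M → Bool := tog z fun _ => false
  let u : g.S → ℝ := Sum.elim (fun s => sgn (σ s.1)) fun _ => 1
  have h1 := om_mulL (anti0 g) u (by
    rintro (s | s) (t | t)
    · show sgn (σ s.1) * sgn (σ t.1) * (if s.1 = t.1 then gA s.2 t.2 else 0) =
        (if s.1 = t.1 then gA s.2 t.2 else 0)
      split_ifs with h
      · rw [← h, sgn_mul_self, one_mul]
      · rw [mul_zero]
    all_goals exact mul_zero _) (Ev.val (mono (fa g) (fb g) n * ins g X))
  have h2 : ∀ x, mulL u (g.ex (cnr x)) = (if x = z then (-1 : ℝ) else 1) • g.ex (cnr x) := by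
    intro x
    funext t
    rw [mulL, Matrix.toLin'_apply, mulVec_diagonal, Pi.smul_apply, smul_eq_mul]
    rcases t with ⟨y, b⟩ | t
    · by_cases hy : y = x
      · simp [u, σ, tog, sgn, hy]
      · simp [Geo.ex, cnr, hy]
    · simp [Geo.ex]
  have h3 : ExteriorAlgebra.map (mulL u) (Ev.val (ins g X)) =
      (∏ a, (if X a = z then (-1 : ℝ) else 1)) • Ev.val (ins g X) := by
    rw [← val_evMap, ← map_smul, ins, I2.evMap_prod, Fintype.prod_prod_type, ← Finset.prod_smul]
    refine congrArg _ (Finset.prod_congr rfl fun i _ => ?_)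
    rw [I2.evMap_pp, h2, h2, I2.pp_smul_smul, Fin.prod_univ_two]
  have h4 : (∏ e, if n e then u (fa g e) * u (fb g e) else 1) = bd (fun e => sgn (n e)) z := by
    have := ends2_tog n z fun _ => false
    rw [show ends2 n (fun _ => false) = 1 by simp [ends2, sgn], mul_one] at this
    exact this
  rw [map_mul, map_mul, map_mono, h3, h4, smul_mul_smul_comm, map_smul, ← map_mul,
    smul_eq_mul] at h1
  exact mul_right_cancel₀ h (h1.trans (one_mul _).symm)

end Vale.Agent.P144Z.DH3
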