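import Vale.Agent.P144D.Defs
import Vale.Agent.P144D.MD.Main
import Vale.Agent.P144D.H.FreeA

/-!
Block H3: the disorder correlations with free boundary condition.
-/

namespace Vale.Agent.P144Z

open Finset Matrix

namespace DH3

open I1 P144.AL
open P144 (WW hor ver tv WW_congr mem_hor mem_ver)

variable {M : ℕ} [NeZero M] {Λ : Finset (ℤ × ℤ)} {T : ℕ}

theorem prj_inj {u v : ℤ × ℤ} (hu : zd u 0 ≤ T + 1) (hv : zd v 0 ≤ T + 1) (hM : 4 * (T + 2) ≤ M)
    (h : prj M u = prj M v) : u = v := by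
  have h4 : prj M (u - v) = 0 := by rw [G.prj_sub, h, sub_self]
  simp only [prj, Prod.mk_eq_zero, ZMod.intCast_zmod_eq_zero_iff_dvd, Prod.fst_sub,
    Prod.snd_sub] at h4
  simp only [zd, Prod.fst_zero, Prod.snd_zero, sub_zero] at hu hv
  have h5 := Int.eq_zero_of_dvd_of_natAbs_lt_natAbs h4.1 (by omega)
  have h6 := Int.eq_zero_of_dvd_of_natAbs_lt_natAbs h4.2 (by omega)
  exact Prod.ext (by omega) (by omega)

theorem zd_step {v : ℤ × ℤ} (h : zd v 0 ≤ T) (i : Fin 2) : zd (v + uz i) 0 ≤ T + 1 := by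
  simp only [zd, Prod.fst_zero, Prod.snd_zero, sub_zero] at h
  fin_cases i <;> simp [zd, uz] <;> omega

theorem prod_bond (hΛ : ∀ v ∈ Λ, zd v 0 ≤ T) (hM : 4 * (T + 2) ≤ M) (i : Fin 2) (φ : Tor M → ℝ) :
    (∏ x, if x ∈ Λ.image (prj M) ∧ x - uv M i ∈ Λ.image (prj M) then φ x else 1) =
      ∏ v ∈ Λ.filter (fun v => v + uz i ∈ Λ), φ (prj M (v + uz i)) := by
  rw [← Finset.prod_filter, ← Finset.prod_image (g := fun v => prj M (v + uz i))]
  · refine Finset.prod_congr ?_ fun _ _ => rfl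
    ext x
    simp only [mem_filter, mem_univ, true_and, mem_image]
    constructor
    · rintro ⟨⟨w, hw, rfl⟩, v, hv, h⟩
      have h1 : prj M w = prj M (v + uz i) := by rw [G.prj_add, prj_uz, h, sub_add_cancel]
      have h2 := prj_inj ((hΛ w hw).trans (by omega)) (zd_step (hΛ v hv) i) hM h1
      exact ⟨v, ⟨hv, h2 ▸ hw⟩, h1.symm⟩
    · rintro ⟨v, ⟨hv, hv'⟩, rfl⟩
      exact ⟨⟨_, hv', rfl⟩, v, hv, by rw [G.prj_add, prj_uz, add_sub_cancel_right]⟩
  · intro v hv w hw h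
    exact add_right_cancel (prj_inj (zd_step (hΛ v (mem_filter.1 hv).1) i)
      (zd_step (hΛ w (mem_filter.1 hw).1) i) hM h)

theorem uz0 (v : ℤ × ℤ) : v + uz 0 = (v.1 + 1, v.2) := by simp [uz, Prod.ext_iff]

theorem uz1 (v : ℤ × ℤ) : v + uz 1 = (v.1, v.2 + 1) := by simp [uz, Prod.ext_iff]

/-- the signs on the horizontal bonds -/
def sH (m : Tor M × Fin 2 → Bool) (v : ℤ × ℤ) : ℝ := sgn (m (prj M (v.1 + 1, v.2), 1))

/-- the signs on the vertical bonds -/
def sV (m : Tor M × Fin 2 → Bool) (v : ℤ × ℤ) : ℝ := sgn (m (prj M (v.1, v.2 + 1), 0))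

theorem wt_free (hΛ : ∀ v ∈ Λ, zd v 0 ≤ T) (hM : 4 * (T + 2) ≤ M) (n : Tor M × Fin 2 → Bool) :
    wt (regOf M Λ true).pw tc n = (1 + tc)⁻¹ ^ ((hor Λ).card + (ver Λ).card) *
      WW Λ (sH n) (sV n) 1 := by
  have h0 : (1 + tc) ≠ 0 := by have := I1.tc_pos; positivity
  have h1 : ∀ e, (if n e then tc * (regOf M Λ true).pw e else 1) =
      if e.1 ∈ Λ.image (prj M) ∧ oth e ∈ Λ.image (prj M) then
        (1 + tc)⁻¹ * (1 + sgn (n e) * tc * (1 * 1)) else 1 := by
    intro e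
    have h2 : (regOf M Λ true).pw e =
        if e.1 ∈ Λ.image (prj M) ∧ oth e ∈ Λ.image (prj M) then 1 else tT := if_pos rfl
    rw [h2, sgn]
    split_ifs
    · field_simp
      linear_combination I1.tc_sq
    · exact tc_mul_tT
    · field_simp
    · rfl
  rw [wt, Finset.prod_congr rfl fun e _ => h1 e, Fintype.prod_prod_type_right, Fin.prod_univ_two]
  have h2 := prod_bond hΛ hM 1 fun x => (1 + tc)⁻¹ * (1 + sgn (n (x, 0)) * tc * (1 * 1))
  have h3 := prod_bond hΛ hM 0 fun x => (1 + tc)⁻¹ * (1 + sgn (n (x, 1)) * tc * (1 * 1))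
  simp only [uz0, uz1, Finset.prod_mul_distrib, Finset.prod_const] at h2 h3
  refine (congrArg₂ (· * ·) h2 h3).trans ?_
  rw [pow_add]
  exact (mul_mul_mul_comm _ _ _ _).trans (congrArg₂ (· * ·) (mul_comm _ _) (mul_comm _ _))

theorem sum_cfg (hΛ : ∀ v ∈ Λ, zd v 0 ≤ T) (hM : 4 * (T + 2) ≤ M) : ∃ c : ℝ, 0 < c ∧
    ∀ a b : ℤ × ℤ → ℝ, ∑ σ : Tor M → Bool, WW Λ a b (fun v => sgn (σ (prj M v))) =
      c * NG Λ a b 0 := by
  let ρ : (Tor M → Bool) → Finset (ℤ × ℤ) := fun σ => Λ.filter fun v => σ (prj M v) = false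
  have hc : ∀ U ∈ Λ.powerset, (univ.filter fun σ => ρ σ = U).card =
      (univ.filter fun σ => ρ σ = ∅).card := by
    intro U hU
    let f : (Tor M → Bool) → Tor M → Bool := fun σ x => xor (σ x) (decide (x ∈ U.image (prj M)))
    have hf : ∀ σ, f (f σ) = σ := fun σ => funext fun x => by simp [f]
    have hm : ∀ v ∈ Λ, prj M v ∈ U.image (prj M) ↔ v ∈ U := fun v hv =>
      ⟨fun h => by
        obtain ⟨w, hw, e⟩ := mem_image.1 h
        exact prj_inj ((hΛ w (mem_powerset.1 hU hw)).trans (by omega))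
          ((hΛ v hv).trans (by omega)) hM e ▸ hw, mem_image_of_mem _⟩
    have key : ∀ σ, ρ σ = U ↔ ρ (f σ) = ∅ := by
      intro σ
      simp only [ρ, f, Finset.ext_iff, mem_filter, notMem_empty, iff_false, not_and]
      refine forall_congr' fun v => ?_
      by_cases hv : v ∈ Λ
      · simp only [hv, hm v hv, true_and, true_imp_iff]
        by_cases hu : v ∈ U <;> cases σ (prj M v) <;> simp [hu]
      · have : v ∉ U := fun h => hv (mem_powerset.1 hU h)
        simp [hv, this]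
    refine Finset.card_nbij' f f (fun σ hσ => ?_) (fun σ hσ => ?_) (fun σ _ => hf σ)
      fun σ _ => hf σ
    · simpa using (key σ).1 (by simpa using hσ)
    · simpa using (key (f σ)).2 (by simpa [hf] using hσ)
  refine ⟨(univ.filter fun σ => ρ σ = ∅).card, ?_, fun a b => ?_⟩
  · exact_mod_cast card_pos.2 ⟨fun _ => true, by simp [ρ]⟩
  rw [← Finset.sum_fiberwise_of_maps_to (s := univ) (t := Λ.powerset) (g := ρ)
    (fun σ _ => mem_powerset.2 (filter_subset _ _)), NG, Finset.mul_sum]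
  refine Finset.sum_congr rfl fun U hU => ?_
  rw [← hc U hU, spn_zero, one_mul, ← nsmul_eq_mul, ← Finset.sum_const]
  refine Finset.sum_congr rfl fun σ hσ => ?_
  have h : ∀ v ∈ Λ, sgn (σ (prj M v)) = tv U v := by
    intro v hv
    rw [← (mem_filter.1 hσ).2]
    cases h : σ (prj M v) <;> simp [ρ, tv, sgn, hv, h]
  exact WW_congr (fun x hx => by rw [h _ (mem_hor.1 hx).1, h _ (mem_hor.1 hx).2])
    fun x hx => by rw [h _ (mem_ver.1 hx).1, h _ (mem_ver.1 hx).2]

theorem sum_dom (hΛ : ∀ v ∈ Λ, zd v 0 ≤ T) (hM : 4 * (T + 2) ≤ M) : ∃ c : ℝ, 0 < c ∧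
    ∀ (θ : Bool × Bool) (m : Tor M × Fin 2 → Bool), ∑ σ : Tor M → Bool,
      wt (regOf M Λ true).pw tc (fun e => xor (xor (dom σ e) (cyc θ e)) (m e)) =
        c * NG Λ (sH m) (sV m) 0 := by
  obtain ⟨c, hc, h⟩ := sum_cfg hΛ hM
  have h0 : 0 < 1 + tc := by have := I1.tc_pos; positivity
  refine ⟨(1 + tc)⁻¹ ^ ((hor Λ).card + (ver Λ).card) * c, by positivity, fun θ m => ?_⟩
  let S : ℤ × ℤ → Prop := fun v => xor (θ.2 && decide (0 ≤ v.1)) (θ.1 && decide (0 ≤ v.2)) = true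
  have hS : ∀ v, P144.chi S v = sgn (θ.2 && decide (0 ≤ v.1)) * sgn (θ.1 && decide (0 ≤ v.2)) := by
    intro v
    rw [← sgn_xor]
    simp only [P144.chi, S, sgn]
    congr
  have hz : ∀ k : ℤ, k.natAbs ≤ T → ((k : ZMod M) = 0 ↔ k = 0) := fun k hk => by
    rw [ZMod.intCast_zmod_eq_zero_iff_dvd]
    exact ⟨fun h => Int.eq_zero_of_dvd_of_natAbs_lt_natAbs h (by omega), fun h => by simp [h]⟩
  have hs : ∀ (b : Bool) (k : ℤ), sgn (b && decide (k + 1 = 0)) =
      sgn (b && decide (0 ≤ k)) * sgn (b && decide (0 ≤ k + 1)) := by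
    intro b k
    rw [← sgn_xor]
    congr 1
    cases b
    · rfl
    · by_cases h1 : k + 1 = 0 <;> by_cases h2 : 0 ≤ k <;> by_cases h3 : 0 ≤ k + 1 <;>
        simp [h1, h2, h3] <;> omega
  rw [NG_gauge Λ _ _ S (by simp), chiM_zero, one_mul, mul_assoc, ← h, Finset.mul_sum]
  refine Finset.sum_congr rfl fun σ _ => ?_
  rw [wt_free hΛ hM]
  refine congrArg _ (WW_congr (fun x hx => ?_) fun x hx => ?_)
  · have h1 := hΛ _ (mem_hor.1 hx).2
    have h2 : prj M (x.1 + 1, x.2) - uv M 0 = prj M x := by simp [prj, uv]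
    have h3 := hz (x.1 + 1) (by simp only [zd, Prod.fst_zero, sub_zero] at h1; omega)
    have h4 : cyc θ (prj M (x.1 + 1, x.2), 1) = (θ.2 && decide (x.1 + 1 = 0)) := by
      simp only [← h3]
      rfl
    have h5 := sgn_mul_self (θ.1 && decide (0 ≤ x.2))
    simp only [sH, sgn_xor, hS, h4, hs, dom, one_ne_zero, if_false, h2, Pi.one_apply]
    linear_combination (-(sgn (σ (prj M (x.1 + 1, x.2))) * sgn (σ (prj M x)) *
      sgn (θ.2 && decide (0 ≤ x.1)) * sgn (θ.2 && decide (0 ≤ x.1 + 1)) *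
      sgn (m (prj M (x.1 + 1, x.2), 1)))) * h5
  · have h1 := hΛ _ (mem_ver.1 hx).2
    have h2 : prj M (x.1, x.2 + 1) - uv M 1 = prj M x := by simp [prj, uv]
    have h3 := hz (x.2 + 1) (by simp only [zd, Prod.snd_zero, sub_zero] at h1; omega)
    have h4 : cyc θ (prj M (x.1, x.2 + 1), 0) = (θ.1 && decide (x.2 + 1 = 0)) := by
      simp only [← h3]
      rfl
    have h5 := sgn_mul_self (θ.2 && decide (0 ≤ x.1))
    simp only [sV, sgn_xor, hS, h4, hs, dom, if_true, h2, Pi.one_apply]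
    linear_combination (-(sgn (σ (prj M (x.1, x.2 + 1))) * sgn (σ (prj M x)) *
      sgn (θ.1 && decide (0 ≤ x.2)) * sgn (θ.1 && decide (0 ≤ x.2 + 1)) *
      sgn (m (prj M (x.1, x.2 + 1), 0)))) * h5

/-- the sign of one edge -/
def pe (e₀ : Tor M × Fin 2) : Gauge M := fun e => if e = e₀ then -1 else 1

/-- the path from `x` up to the height `H` and then to the axis -/
noncomputable def ray (M : ℕ) (H : ℤ) (x : ℤ × ℤ) : Gauge M :=
  (∏ k ∈ Finset.Ico (min x.2 H) (max x.2 H), pe (prj M (x.1, k), 1)) *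
    ∏ k ∈ Finset.Ico (min x.1 0) (max x.1 0), pe (prj M (k, H), 0)

omit [NeZero M] in
theorem bd_mul (s t : Gauge M) (z : Tor M) : bd (s * t) z = bd s z * bd t z := by
  simp only [bd, Pi.mul_apply]
  ring

omit [NeZero M] in
theorem bd_prod {ι : Type} (A : Finset ι) (s : ι → Gauge M) (z : Tor M) :
    bd (∏ i ∈ A, s i) z = ∏ i ∈ A, bd (s i) z := by
  simp only [bd, Finset.prod_apply, Finset.prod_mul_distrib]

omit [NeZero M] in
theorem bd_pe (y : Tor M) (i : Fin 2) (z : Tor M) : bd (pe (y, i)) z =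
    (if y + uv M i = z then -1 else 1) * if y = z then -1 else 1 := by
  have h : ∀ j, z - uv M j = y ↔ y + uv M j = z := fun j => sub_eq_iff_eq_add.trans eq_comm
  fin_cases i <;> simp [bd, pe, h, @eq_comm _ z y, mul_comm]

omit [NeZero M] in
theorem bd_ray (H : ℤ) (x : ℤ × ℤ) (z : Tor M) : bd (ray M H x) z =
    (if prj M x = z then -1 else 1) * if prj M (0, H) = z then -1 else 1 := by
  have sq : ∀ y : Tor M, (if y = z then (-1 : ℝ) else 1) * (if y = z then -1 else 1) = 1 :=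
    fun y => by split_ifs <;> norm_num
  have e0 : ∀ i j : ℤ, prj M (i, j) + uv M 0 = prj M (i + 1, j) := fun i j => by simp [prj, uv]
  have e1 : ∀ i j : ℤ, prj M (i, j) + uv M 1 = prj M (i, j + 1) := fun i j => by simp [prj, uv]
  rw [ray, bd_mul, bd_prod, bd_prod]
  simp only [bd_pe, e0, e1]
  rw [tele (fun k => if prj M (x.1, k) = z then -1 else 1) (fun _ => sq _),
    tele (fun k => if prj M (k, H) = z then -1 else 1) (fun _ => sq _), mul_assoc,
    ← mul_assoc (if prj M (x.1, H) = z then (-1 : ℝ) else 1), sq, one_mul]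

theorem sign_mul {α : Type} {s t : α → ℝ} (hs : IsSign s) (ht : IsSign t) : IsSign (s * t) :=
  fun e => by rcases hs e with h | h <;> rcases ht e with h' | h' <;> simp [h, h']

theorem sign_prod {α ι : Type} (A : Finset ι) {s : ι → α → ℝ} (hs : ∀ i, IsSign (s i)) :
    IsSign (∏ i ∈ A, s i) :=
  Finset.prod_induction _ IsSign (fun _ _ => sign_mul) (fun _ => Or.inl rfl) fun i _ => hs i

omit [NeZero M] in
theorem sign_ray (H : ℤ) (x : ℤ × ℤ) : IsSign (ray M H x) := by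
  have h : ∀ e₀ : Tor M × Fin 2, IsSign (pe e₀) := fun e₀ e => by
    unfold pe
    split_ifs <;> simp
  exact sign_mul (sign_prod _ fun _ => h _) (sign_prod _ fun _ => h _)

theorem ray_hor (hM : 4 * (T + 2) ≤ M) {x v : ℤ × ℤ} (hx : zd x 0 ≤ T)
    (hv : zd (v.1 + 1, v.2) 0 ≤ T) :
    ray M (T + 1) x (prj M (v.1 + 1, v.2), 1) = cut1 (x - (1, 1)) v := by
  have hx' := hx
  have hv' := hv
  simp only [zd, Prod.fst_zero, Prod.snd_zero, sub_zero] at hx' hv'
  have h : ∀ k ∈ Finset.Ico (min x.2 (T + 1)) (max x.2 (T + 1)),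
      pe (prj M (x.1, k), 1) (prj M (v.1 + 1, v.2), 1) =
        if v.2 = k then (if v.1 + 1 = x.1 then (-1 : ℝ) else 1) else 1 := by
    intro k hk
    rw [Finset.mem_Ico] at hk
    have : prj M (v.1 + 1, v.2) = prj M (x.1, k) ↔ (v.1 + 1, v.2) = (x.1, k) :=
      ⟨prj_inj (hv.trans (by omega)) (by simp only [zd, Prod.fst_zero, Prod.snd_zero]; omega) hM,
        congrArg _⟩
    simp only [pe, Prod.mk.injEq, and_true, this]
    by_cases h1 : v.2 = k <;> simp [h1]
  rw [ray, Pi.mul_apply, Finset.prod_apply, Finset.prod_apply, Finset.prod_congr rfl h,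
    Finset.prod_ite_eq, Finset.prod_eq_one fun k _ => by simp [pe], mul_one, cut1]
  simp only [Finset.mem_Ico, Prod.fst_sub, Prod.snd_sub]
  split_ifs <;> first | rfl | omega

theorem ray_ver (hM : 4 * (T + 2) ≤ M) {x v : ℤ × ℤ} (hx : zd x 0 ≤ T) (hv : zd v 0 ≤ T) :
    ray M (T + 1) x (prj M v, 0) = 1 := by
  have hx' := hx
  have hv' := hv
  simp only [zd, Prod.fst_zero, Prod.snd_zero, sub_zero] at hx' hv'
  rw [ray, Pi.mul_apply, Finset.prod_apply, Finset.prod_apply,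
    Finset.prod_eq_one fun k _ => by simp [pe], one_mul]
  refine Finset.prod_eq_one fun k hk => if_neg fun h => ?_
  rw [Finset.mem_Ico] at hk
  have := prj_inj (hv.trans (by omega)) (by simp only [zd, Prod.fst_zero, Prod.snd_zero]; omega) hM
    (Prod.ext_iff.1 h).1
  rw [this] at hv'
  simp only at hv'
  omega

theorem wt_nn (R : Reg M) (n : Tor M × Fin 2 → Bool) : 0 ≤ wt R.pw tc n := by
  refine Finset.prod_nonneg fun e _ => ?_
  have h0 : (0 : ℝ) ≤ tT := by unfold tT; positivity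
  have h1 := I1.tc_pos
  unfold Reg.pw
  split_ifs <;> positivity

theorem abs_wt (R : Reg M) {B : Gauge M} (hB : IsSign B) (n : Tor M × Fin 2 → Bool) :
    |wt (R.pw * B) tc n| = wt R.pw tc n := by
  have h : |wt B 1 n| = 1 := by
    rw [wt, Finset.abs_prod]
    refine Finset.prod_eq_one fun e _ => ?_
    split_ifs
    · rcases hB e with h | h <;> simp [h]
    · simp
  rw [mul_comm, wt_mul, abs_mul, h, one_mul, abs_of_nonneg (wt_nn R n)]

theorem cw_sq {m : Tor M × Fin 2 → Bool} (h : IsEven m) : cw m * cw m = 1 := by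
  obtain ⟨σ, θ, rfl⟩ := h.exists_dom_cyc
  rw [cw_dom_cyc]
  split_ifs <;> simp

end DH3

open P144 (mem_hor mem_ver) in
open P144.H436 (MM) in
open I1 DH3 P144.AL in
/-- The disorder correlations with free boundary condition. -/
theorem free_K (p : ℕ) : ∃ C : ℝ, 0 ≤ C ∧ ∀ (M : ℕ) [NeZero M] (Λ : Finset (ℤ × ℤ)) (T r : ℕ)
    (x : Fin p × Fin 2 → ℤ × ℤ) (B : Gauge M), IsSign B → (∀ v ∈ Λ, zd v 0 ≤ T) → Spins Λ r x →
    4 ≤ r → 4 * (T + 2) ≤ M →
    ∀ (ι : Type) [Fintype ι] [DecidableEq ι] (y : ι → Tor M) (d : ι → Fin 2) (J : ℕ),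
      |aug (Ev.val ((geoD M ((regOf M Λ true).pw * B) y d J).Om (∏ i,
        pp ((geoD M ((regOf M Λ true).pw * B) y d J).ex (cnr (prj M (x (i, 0)))))
          ((geoD M ((regOf M Λ true).pw * B) y d J).ex (cnr (prj M (x (i, 1))))))))| ≤
        C * (r : ℝ) ^ (-(((2 * p : ℕ) : ℝ) / 8)) * |Zw par0 (regOf M Λ true).pw 1| := by
  obtain ⟨C, hC, HC⟩ := MD.dis_decay (2 * p)
  refine ⟨16 ^ p * 2 * (C * (2 ^ (1 / 8 : ℝ)) ^ (2 * p)), by positivity, ?_⟩
  intro M _ Λ T r x B hB hΛ hx hr hM ι _ _ y d J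
  obtain ⟨c, hc, Hc⟩ := sum_dom hΛ hM
  have hxT : ∀ a, zd (x a) 0 ≤ T := fun a => hΛ _ (hx.ins a _ (by simp [zd]))
  have hinj : Function.Injective fun a => x a - (1, 1) := fun a a' h => by
    by_contra hne
    have := hx.sep a a' hne
    rw [sub_left_injective h] at this
    simp [zd] at this
  set R := univ.image fun a => x a - (1, 1) with hR
  set s : Gauge M := ∏ a, ray M (T + 1) (x a) with hs
  have hsg : IsSign s := sign_prod _ fun _ => sign_ray _ _
  let n₀ : Tor M × Fin 2 → Bool := fun e => decide (s e = -1)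
  have hn₀ : ∀ e, sgn (n₀ e) = s e := fun e => by
    rcases hsg e with h | h <;> simp only [n₀, h] <;> norm_num [sgn]
  have hZ : |Zw par0 (regOf M Λ true).pw 1| = c * QQ Λ 0 0 := by
    have h := sum_cw (M := M) fun n => wt (regOf M Λ true).pw tc n
    have h1 := fun θ => Hc θ fun _ => false
    simp only [Bool.xor_false] at h1
    have h2 : NG Λ (sH (M := M) fun _ => false) (sV (M := M) fun _ => false) 0 = QQ Λ 0 0 :=
      NG_congr (fun v _ => by simp [sH, sgn, cutS_zero]) (fun v _ => by simp [sV, sgn]) _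
    have h3 : Zw par0 (regOf M Λ true).pw 1 = ∑ n, cw n • wt (regOf M Λ true).pw tc n := by
      simp only [Zw, I1.uint_par0, Real.exp_zero, Pi.one_apply, mul_one, smul_eq_mul]
      rfl
    rw [← h3] at h
    simp only [h1, h2, Fintype.sum_prod_type, Fintype.sum_bool, smul_eq_mul] at h
    simp at h
    rw [show Zw par0 (regOf M Λ true).pw 1 = -(c * QQ Λ 0 0) by linarith, abs_neg,
      abs_of_pos (mul_pos hc (QQ_pos Λ 0))]
  have hN : ∑ m, cw m * cw m * wt (regOf M Λ true).pw tc (fun e => xor (m e) (n₀ e)) =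
      2 * (c * QQ Λ R.val 0) := by
    have h := sum_cw (M := M) fun m =>
      cw m * wt (regOf M Λ true).pw tc fun e => xor (m e) (n₀ e)
    have h2 : NG Λ (sH n₀) (sV n₀) 0 = QQ Λ R.val 0 := by
      refine NG_congr (fun v hv => ?_) (fun v hv => ?_) _
      · rw [sH, hn₀, hs, Finset.prod_apply,
          Finset.prod_congr rfl fun a _ => ray_hor hM (hxT a) (hΛ _ (mem_hor.1 hv).2)]
        exact (Finset.prod_image (f := fun u => cut1 u v) fun a _ a' _ h => hinj h).symm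
      · rw [sV, hn₀, hs, Finset.prod_apply]
        exact Finset.prod_eq_one fun a _ => ray_ver hM (hxT a) (hΛ _ (mem_ver.1 hv).2)
    simp only [cw_dom_cyc, ← Finset.mul_sum, Hc, h2, Fintype.sum_prod_type, Fintype.sum_bool,
      smul_eq_mul, ← mul_assoc] at h
    simp at h
    linarith
  have hM' := HC (r - 1) (by omega) Λ R (by simp [hR, card_image_of_injective _ hinj, mul_comm])
    (fun u hu v hv huv => by
      obtain ⟨a, -, rfl⟩ := mem_image.1 hu
      obtain ⟨a', -, rfl⟩ := mem_image.1 hv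
      have := hx.sep a a' fun h => huv (by rw [h])
      simp only [zd, Prod.fst_sub, Prod.snd_sub] at this ⊢
      omega)
    (fun u hu v hv => by
      obtain ⟨a, -, rfl⟩ := mem_image.1 hu
      refine hx.ins a v ?_
      simp only [zd, Prod.fst_sub, Prod.snd_sub] at hv ⊢
      omega)
  have hr' : (0 : ℝ) < r := by exact_mod_cast (by omega : 0 < r)
  have hp : ((r - 1 : ℕ) : ℝ) ^ (-(((2 * p : ℕ) : ℝ) / 8)) ≤
      (2 ^ (1 / 8 : ℝ)) ^ (2 * p) * (r : ℝ) ^ (-(((2 * p : ℕ) : ℝ) / 8)) := by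
    have h1 := MD.rp_pow 1 (Nat.cast_nonneg (α := ℝ) (r - 1)) (2 * p)
    rw [one_mul, one_pow, one_mul] at h1
    rw [← h1, ← MD.rp_pow _ hr'.le]
    exact pow_le_pow_left₀ (by positivity) (MD.rp_le hr' two_pos
      (by exact_mod_cast (by omega : r ≤ 2 * (r - 1)))) _
  have hQ : QQ Λ R.val 0 = MM Λ R.val * QQ Λ 0 0 := (div_mul_cancel₀ _ (QQ_pos Λ 0).ne').symm
  let g := geoD M ((regOf M Λ true).pw * B) y d J
  let W : (Tor M × Fin 2 → Bool) → ℝ := cwX g fun a => prj M (x a)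
  have hW1 : ∀ n, |W n| ≤ 16 ^ p := abs_cwX (g := g) _
  have hW2 : ∀ n, W n ≠ 0 → ∀ z, bd (fun e => sgn (n e)) z *
      ∏ a, (if prj M (x a) = z then (-1 : ℝ) else 1) = 1 := fun n h => bd_cwX (g := g) h
  have h1 : |∑ n, wt ((regOf M Λ true).pw * B) tc n * W n| ≤
      16 ^ p * ∑ m, cw m * cw m * wt (regOf M Λ true).pw tc (fun e => xor (m e) (n₀ e)) := by
    have hi : Function.Involutive fun (m : Tor M × Fin 2 → Bool) e => xor (m e) (n₀ e) :=
      fun m => funext fun e => by simp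
    rw [← Equiv.sum_comp hi.toPerm, Finset.mul_sum]
    refine (Finset.abs_sum_le_sum_abs _ _).trans (Finset.sum_le_sum fun m _ => ?_)
    rw [Function.Involutive.coe_toPerm, abs_mul, abs_wt _ hB]
    have h0 := wt_nn (regOf M Λ true) fun e => xor (m e) (n₀ e)
    by_cases h : W (fun e => xor (m e) (n₀ e)) = 0
    · rw [h, abs_zero, mul_zero]
      exact mul_nonneg (by positivity) (mul_nonneg (mul_self_nonneg _) h0)
    have he : IsEven m := fun z => by
      have h2 := hW2 _ h z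
      have h3 : (fun e => sgn (xor (m e) (n₀ e))) = (fun e => sgn (m e)) * s :=
        funext fun e => by rw [sgn_xor, hn₀]; rfl
      have h4 : bd s z = ∏ a, (if prj M (x a) = z then (-1 : ℝ) else 1) := by
        rw [hs, bd_prod]
        simp only [bd_ray, Finset.prod_mul_distrib, Finset.prod_const]
        rw [Finset.card_univ, Fintype.card_prod, Fintype.card_fin 2, mul_comm _ 2, pow_mul,
          show (if prj M (0, (T : ℤ) + 1) = z then (-1 : ℝ) else 1) ^ 2 = 1 by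
            split_ifs <;> norm_num, one_pow, mul_one]
      have h5 : (∏ a, (if prj M (x a) = z then (-1 : ℝ) else 1)) *
          ∏ a, (if prj M (x a) = z then (-1 : ℝ) else 1) = 1 := by
        rw [← Finset.prod_mul_distrib]
        exact Finset.prod_eq_one fun a _ => by split_ifs <;> norm_num
      rwa [h3, bd_mul, h4, mul_assoc, h5, mul_one] at h2
    rw [cw_sq he, one_mul, mul_comm]
    exact mul_le_mul_of_nonneg_right (hW1 _) h0
  refine (le_of_eq (congrArg abs (Om_ins (g := g) fun a => prj M (x a)))).trans (h1.trans ?_)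
  rw [hN, hZ, hQ]
  have h2 := mul_le_mul_of_nonneg_right (hM'.trans (mul_le_mul_of_nonneg_left hp hC.le))
    (mul_pos hc (QQ_pos Λ 0)).le
  have h3 := mul_le_mul_of_nonneg_left h2 (show (0 : ℝ) ≤ 16 ^ p * 2 by positivity)
  refine le_of_eq_of_le (by ring) (h3.trans (le_of_eq (by ring)))

end Vale.Agent.P144Z
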