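import Vale.Agent.P144D.H.PlusA
import Vale.Agent.P144D.MD.Main

/-!
The spin correlations of the nearest-neighbour model with plus boundary condition.
-/

namespace Vale.Agent.P144Z

open Finset Vale.Agent.P144

/-- The spin correlations with plus boundary condition. -/
theorem plus_K (n : ℕ) : ∃ C : ℝ, 0 ≤ C ∧ ∀ (M : ℕ) [NeZero M] (Λ : Finset (ℤ × ℤ)) (T r H : ℕ)
    (x : Fin n → ℤ × ℤ) (a : ℤ × ℤ) (hs : Fin H → ℤ × ℤ) (S : Finset (Fin H)),
    Holes Λ T r a hs → Spins Λ r x → 1 ≤ r → 4 * (T + 2) ≤ M →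
      |Zw par0 ((regOf M Λ false).pw * (spinG M a x * holeG M a hs S)) 1| ≤
        C * (r : ℝ) ^ (-((n : ℝ) / 8)) * |Zw par0 (regOf M Λ false).pw 1| := by
  obtain ⟨C, hC, h⟩ := MD.spin_decay one_pos n
  refine ⟨C, hC.le, fun M _ Λ T r H x a hs S h1 h2 hr hM => ?_⟩
  have z0 : ∀ v : ℤ × ℤ, zd v v ≤ r := fun v => by simp [zd]
  have hinj : Function.Injective x := by
    intro i j e
    by_contra hne
    have h3 := h2.sep i j hne
    rw [e] at h3
    exact absurd (z0 _) (not_le.2 h3)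
  refine H2D.plus_le h1.box hM S (fun i => h2.ins i _ (z0 _))
    (H2D.prj_out h1.box hM h1.a_le (h1.a_out _ (z0 _)))
    (fun i => H2D.prj_out h1.box hM (h1.h_le i) (h1.h_out i _ (z0 _))) fun η => ?_
  have h3 := h r hr (some η) Λ (univ.image x) (by rw [card_image_of_injective _ hinj]; simp)
    (fun u hu v hv hne => ?_) fun u hu v hv => ?_
  · simpa only [prod_image fun i _ j _ e => hinj e] using h3
  · obtain ⟨i, -, rfl⟩ := mem_image.1 hu
    obtain ⟨j, -, rfl⟩ := mem_image.1 hv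
    exact h2.sep i j fun e => hne (by rw [e])
  · obtain ⟨i, -, rfl⟩ := mem_image.1 hu
    exact h2.ins i v hv

end Vale.Agent.P144Z
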