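import Vale.Agent.P144D.H.Sec.Free

/-!
The Gibbs measure of a finite set in terms of contours.
-/

namespace Vale.Agent.P144Z

open Finset Matrix Filter Topology

section H1
variable {M : ℕ} [NeZero M]

/-- Strings are observables. -/
theorem ZwC_spinG (q : Par) (Δ : Cor M) (A : Gauge M) {n : ℕ} (a : ℤ × ℤ) (x : Fin n → ℤ × ℤ)
    (Φ : (Tor M × Fin 2 → Bool) → ℝ) :
    ZwC q Δ (A * spinG M a x) Φ =
      ZwC q Δ A (fun c => Φ c * obs M (fun c' => ∏ i, pHV c' a (x i)) c) := by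
  refine Finset.sum_congr rfl fun c _ => ?_
  rw [mul_comm A, I1.wt_mul, spinG, I1.wt_prod]
  simp only [I1.wt_strG, H3.obs_eq]
  ring

/-- The Gibbs measure of a finite set with free or plus boundary condition. -/
theorem gibbs_sec {J lam β : ℝ} (q : Par) (hV : P144.IsPotential q.V)
    (hR : ∀ B, q.V B ≠ 0 → (0, 0) ∈ B → B ∈ potSets q.R) (hμ : q.μ = β * lam)
    (hx : q.x = Real.exp (-(2 * β * J))) {T : ℕ} (Λ : Finset P144.Site) (hΛ : ∀ x ∈ Λ, zd x 0 ≤ T)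
    (hM : 4 * (T + q.R + 2) ≤ M) (fr : Bool) {H : ℕ} (a : ℤ × ℤ) (hs : Fin H → ℤ × ℤ)
    (hfr : fr = true → H = 0)
    (hpl : fr = false → prj M a ∉ (regOf M Λ fr).In ∧ (∀ i, prj M (hs i) ∉ (regOf M Λ fr).In) ∧
      ∀ u, u ∉ (regOf M Λ fr).In →
        OutConn (regOf M Λ fr).In u (prj M a) ∨ ∃ i, OutConn (regOf M Λ fr).In u (prj M (hs i)))
    (F : P144.Config → ℝ) (Φ : (Tor M × Fin 2 → Bool) → ℝ)
    (hF : ∀ σ σ', (∀ x ∈ Λ, σ x = σ' x) → F σ = F σ')
    (hΦ : ∀ s : Tor M → Bool, (fr = false → s (prj M a) = true) → F (per M s) = Φ (dom s))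
    (hloc : fr = true → BoxLoc (T + 1) Φ) :
    P144.gibbs J lam q.V β (if fr then none else some fun _ => true) Λ F =
      secE q (regOf M Λ fr) a hs Φ ∧
    ZwC q ((regOf M Λ fr).cor q) (regOf M Λ fr).pw 1 ≠ 0 := by
  have hx0 : 0 < q.x := hx ▸ Real.exp_pos _
  cases fr
  · obtain ⟨h1, h2, h3⟩ := hpl rfl
    refine ⟨DH1.gibbs_plus q hV hR hμ hx Λ hΛ hM a hs h1 h2 h3 F Φ hF fun s h => hΦ s fun _ => h,
      ?_⟩
    rw [show (regOf M Λ false).cor q = 0 from DH1.cor_plus _ q, DH1.ZwC_zero]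
    exact (DH1.Zw_plus_pos hΛ (by omega) hx0).ne'
  · obtain rfl := hfr rfl
    have h0 : 0 < ∑ σ : Tor M → Bool, DH1.wF q (Λ.image (prj M)) (dom σ) :=
      sum_pos (fun _ _ => DH1.wF_pos hx0 _ _) univ_nonempty
    have h1 := DH1.ZwC_free hx0 hΛ hM (Φ := 1) fun _ _ _ => rfl
    simp only [Pi.one_apply, one_mul] at h1
    refine ⟨?_, by rw [h1]; exact neg_ne_zero.2 h0.ne'⟩
    have h2 : ∀ S : Finset (Fin 0), holeG M a hs S = 1 := fun S => by
      rw [S.eq_empty_of_isEmpty, holeG, prod_empty]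
    unfold secE
    simp only [h2, mul_one, sum_const, card_univ, Fintype.card_finset, Fintype.card_fin,
      pow_zero, one_smul]
    rw [h1, DH1.ZwC_free hx0 hΛ hM (hloc rfl), neg_div_neg_eq]
    simp only [← fun s => hΦ s fun h => absurd h (by decide)]
    rw [DH1.gibbs_free q hV hR hμ hx Λ hΛ hM F hF, mul_div_cancel_right₀ _ h0.ne']
    rfl
end H1

end Vale.Agent.P144Z
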