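import Vale.Agent.P144D.Defs
import Vale.Agent.P144Z.H3.Main
import Vale.Agent.P144Z.U4.Main

/-!
The nearest-neighbour model with plus boundary condition as a sum over spin configurations.
-/

namespace Vale.Agent.P144Z

open Finset Matrix Vale.Agent.P144

namespace H2D

section GK

variable {ι : Type} [Fintype ι] [DecidableEq ι]

/-- All moments of `f` are nonnegative. -/
def GK (f : (ι → Bool) → ℝ) : Prop := ∀ k : ι → ℕ, 0 ≤ ∑ σ, f σ * ∏ x, sp (σ x) ^ k x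

theorem GK.one : GK (ι := ι) fun _ => 1 := by
  intro k
  simp only [one_mul]
  rw [← Fintype.piFinset_univ, ← Finset.prod_univ_sum (fun _ => univ) fun x b => sp b ^ k x]
  refine prod_nonneg fun x _ => ?_
  rw [Fintype.sum_bool]
  rcases neg_one_pow_eq_or ℝ (k x) with h | h <;> simp [sp, h]

theorem GK.mul_sp {f : (ι → Bool) → ℝ} (h : GK f) (u : ι) : GK fun σ => f σ * sp (σ u) := by
  intro k
  refine (h (k + Pi.single u 1)).trans_eq (sum_congr rfl fun σ _ => ?_)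
  simp only [Pi.add_apply, pow_add, prod_mul_distrib]
  rw [prod_eq_single (f := fun x => sp (σ x) ^ (Pi.single u 1 : ι → ℕ) x) u
    (fun x _ hx => by simp [hx]) (by simp)]
  simp only [Pi.single_eq_same, pow_one]
  ring

theorem GK.mul_bond {f : (ι → Bool) → ℝ} (h : GK f) (u v : ι) {a b : ℝ} (ha : 0 ≤ a) (hb : 0 ≤ b) :
    GK fun σ => f σ * (a + b * (sp (σ u) * sp (σ v))) := by
  intro k
  refine (add_nonneg (mul_nonneg ha (h k)) (mul_nonneg hb ((h.mul_sp u).mul_sp v k))).trans_eq ?_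
  rw [mul_sum, mul_sum, ← sum_add_distrib]
  exact sum_congr rfl fun σ _ => by ring

theorem GK.prod {κ : Type} (s : Finset κ) (u v : κ → ι) {a b : κ → ℝ} (ha : ∀ j, 0 ≤ a j)
    (hb : ∀ j, 0 ≤ b j) {f : (ι → Bool) → ℝ} (h : GK f) :
    GK fun σ => f σ * ∏ j ∈ s, (a j + b j * (sp (σ (u j)) * sp (σ (v j)))) := by
  classical
  induction s using Finset.induction_on with
  | empty => simpa using h
  | insert j s hj ih =>
    simp only [prod_insert hj]
    have := ih.mul_bond (u j) (v j) (ha j) (hb j)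
    simpa only [mul_assoc, mul_comm, mul_left_comm] using this

theorem GK.sum {f : (ι → Bool) → ℝ} (h : GK f) : 0 ≤ ∑ σ, f σ := by
  simpa using h 0

end GK

theorem tc_pos : 0 < tc := by
  rw [U4.tc_eq]
  exact Real.exp_pos _

theorem tc_le : tc ≤ 1 := by
  have : √2 ≤ 2 := Real.sqrt_le_iff.2 ⟨by norm_num, by norm_num⟩
  unfold tc
  linarith

variable {M : ℕ} [NeZero M]

omit [NeZero M] in
theorem prj_ne {v : ℤ} {T : ℕ} (hv : v.natAbs ≤ T) (hM : 4 * (T + 2) ≤ M) :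
    (v : ZMod M) ≠ ((M / 2 : ℕ) : ZMod M) := by
  intro h
  have h1 : ((M / 2 : ℕ) : ZMod M) = (((M / 2 : ℕ) : ℤ) : ZMod M) := (Int.cast_natCast _).symm
  rw [h1, ZMod.intCast_eq_intCast_iff_dvd_sub] at h
  have := Int.eq_zero_of_abs_lt_dvd h (by rw [abs_lt]; omega)
  omega

omit [NeZero M] in
theorem pw_in {Λ : Finset (ℤ × ℤ)} {e : Tor M × Fin 2}
    (h : e.1 ∈ Λ.image (prj M) ∨ oth e ∈ Λ.image (prj M)) : (regOf M Λ false).pw e = 1 :=
  (if_neg Bool.false_ne_true).trans (if_pos h)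

omit [NeZero M] in
theorem pw_out {Λ : Finset (ℤ × ℤ)} {e : Tor M × Fin 2}
    (h : ¬ (e.1 ∈ Λ.image (prj M) ∨ oth e ∈ Λ.image (prj M))) : (regOf M Λ false).pw e = 0 :=
  (if_neg Bool.false_ne_true).trans (if_neg h)

omit [NeZero M] in
/-- The seams are removed. -/
theorem sec_pw {Λ : Finset (ℤ × ℤ)} {T : ℕ} (hΛ : ∀ x ∈ Λ, zd x 0 ≤ T) (hM : 4 * (T + 2) ≤ M)
    (θ : Bool × Bool) : sec M θ * (regOf M Λ false).pw = (regOf M Λ false).pw := by
  have key : ∀ u ∈ Λ.image (prj M),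
      u.1 ≠ ((M / 2 : ℕ) : ZMod M) ∧ u.2 ≠ ((M / 2 : ℕ) : ZMod M) := by
    intro u hu
    obtain ⟨v, hv, rfl⟩ := mem_image.1 hu
    have := hΛ v hv
    simp only [zd, Prod.fst_zero, Prod.snd_zero, sub_zero, max_le_iff] at this
    exact ⟨prj_ne this.1 hM, prj_ne this.2 hM⟩
  funext ⟨u, i⟩
  rw [Pi.mul_apply]
  by_cases h : u ∈ Λ.image (prj M) ∨ oth (u, i) ∈ Λ.image (prj M)
  · rw [pw_in (e := (u, i)) h, mul_one]
    unfold sec
    fin_cases i
    · have : u.1 ≠ ((M / 2 : ℕ) : ZMod M) := by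
        rcases h with h | h
        · exact (key _ h).1
        · simpa [oth, uv] using (key _ h).1
      simp [this]
    · have : u.2 ≠ ((M / 2 : ℕ) : ZMod M) := by
        rcases h with h | h
        · exact (key _ h).2
        · simpa [oth, uv] using (key _ h).2
      simp [this]
  · rw [pw_out (e := (u, i)) h, mul_zero]

/-- The contour sum as a sum over spins. -/
theorem Zw_eq {P : Gauge M} (hP : ∀ θ, sec M θ * P = P) (B : Gauge M) :
    Zw par0 (P * B) 1 = 1 / 2 * ∑ σ : Tor M → Bool, wt B 1 (dom σ) * wt P tc (dom σ) := by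
  have h := I1.sum_Zw par0 (P * B) 1
  simp only [← mul_assoc, hP, sum_const, card_univ, Fintype.card_prod, Fintype.card_bool,
    nsmul_eq_mul] at h
  have e : ∀ σ : Tor M → Bool, wt (P * B) par0.x (dom σ) * Real.exp (uint par0 (dom σ)) *
      (1 : (Tor M × Fin 2 → Bool) → ℝ) (dom σ) = wt B 1 (dom σ) * wt P tc (dom σ) := by
    intro σ
    rw [mul_comm P, I1.wt_mul]
    simp [uint, par0]
  simp only [e] at h
  push_cast at h
  linarith

theorem Zw_eq_one {P : Gauge M} (hP : ∀ θ, sec M θ * P = P) :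
    Zw par0 P 1 = 1 / 2 * ∑ σ : Tor M → Bool, wt P tc (dom σ) := by
  have h := Zw_eq hP 1
  simpa only [mul_one, I1.wt_one, one_mul] using h

theorem wt_holeG {H : ℕ} (a : ℤ × ℤ) (hs : Fin H → ℤ × ℤ) (S : Finset (Fin H))
    (σ : Tor M → Bool) : wt (holeG M a hs S) 1 (dom σ) =
      ∏ i ∈ S, sp (σ (prj M a)) * sp (σ (prj M (hs i))) := by
  unfold holeG
  rw [I1.wt_prod]
  simp only [I1.wt_strG_dom]

theorem wt_bond (P : Gauge M) (x : ℝ) (σ : Tor M → Bool) : wt P x (dom σ) =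
    ∏ e, ((1 + x * P e) / 2 + (1 - x * P e) / 2 * (sp (σ e.1) * sp (σ (oth e)))) := by
  refine prod_congr rfl fun e _ => ?_
  unfold dom oth
  cases σ e.1 <;> cases σ (e.1 - uv M (if e.2 = 0 then 1 else 0)) <;> simp [sp] <;> ring

omit [NeZero M] in
theorem pw_cases (Λ : Finset (ℤ × ℤ)) (e : Tor M × Fin 2) :
    (regOf M Λ false).pw e = 0 ∨ (regOf M Λ false).pw e = 1 := by
  by_cases h : e.1 ∈ Λ.image (prj M) ∨ oth e ∈ Λ.image (prj M)
  · exact Or.inr (pw_in h)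
  · exact Or.inl (pw_out h)

theorem wt_nonneg {P : Gauge M} (hP : ∀ e, 0 ≤ P e) {x : ℝ} (hx : 0 ≤ x)
    (n : Tor M × Fin 2 → Bool) : 0 ≤ wt P x n := by
  refine prod_nonneg fun e _ => ?_
  split_ifs
  · exact mul_nonneg hx (hP e)
  · exact zero_le_one

omit [NeZero M] in
theorem pw_nonneg (Λ : Finset (ℤ × ℤ)) (e : Tor M × Fin 2) : 0 ≤ (regOf M Λ false).pw e := by
  rcases pw_cases Λ e with h | h <;> simp [h]

theorem hull_le {y : Site} (hy : y ∈ U1.hull fun _ => 0) : |y.1| ≤ 1 ∧ |y.2| ≤ 1 := by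
  obtain ⟨A, hA, hy⟩ := mem_biUnion.1 hy
  obtain ⟨h0, h1⟩ := (U1.mem_shapes U1.pot_zero).1 hA
  have h2 := I1.mem_edges0.2 ⟨h1.resolve_right fun h => h rfl, h0.1⟩
  simp only [I1.edges0, mem_insert, mem_singleton] at h2
  rcases h2 with rfl | rfl | rfl | rfl <;> simp only [id, mem_insert, mem_singleton] at hy <;>
    rcases hy with rfl | rfl <;> simp

omit [NeZero M] in
theorem inj_box {Λ : Finset (ℤ × ℤ)} {T : ℕ} (hΛ : ∀ x ∈ Λ, zd x 0 ≤ T) (hM : 4 * (T + 2) ≤ M) :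
    Set.InjOn (U1.red M) (U1.firsts (fun _ => 0) Λ ∪ (Λ ∪ U1.seen (fun _ => 0) Λ) : Finset Site) := by
  have h0 : ∀ x ∈ Λ, |x.1| ≤ T ∧ |x.2| ≤ T := by
    intro x hx
    have := hΛ x hx
    simp only [zd, Prod.fst_zero, Prod.snd_zero, sub_zero, max_le_iff] at this
    simp only [abs_le]
    omega
  have h1 : ∀ x ∈ U1.firsts (fun _ => 0) Λ, |x.1| ≤ T + 1 ∧ |x.2| ≤ T + 1 := by
    intro x hx
    obtain ⟨q, hq, rfl⟩ := mem_image.1 hx
    have a1 := h0 _ (mem_product.1 hq).1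
    have a2 := hull_le (mem_product.1 hq).2
    simp only [abs_le, Prod.fst_sub, Prod.snd_sub] at a1 a2 ⊢
    omega
  have h2 : ∀ x ∈ U1.firsts (fun _ => 0) Λ ∪ (Λ ∪ U1.seen (fun _ => 0) Λ),
      |x.1| ≤ T + 2 ∧ |x.2| ≤ T + 2 := by
    intro x hx
    simp only [mem_union] at hx
    rcases hx with hx | hx | hx
    · have := h1 x hx
      omega
    · have := h0 x hx
      omega
    · obtain ⟨q, hq, rfl⟩ := mem_image.1 hx
      have a1 := h1 _ (mem_product.1 hq).2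
      have a2 := hull_le (mem_product.1 hq).1
      simp only [abs_le, Prod.fst_add, Prod.snd_add] at a1 a2 ⊢
      omega
  intro x hx y hy e
  have a1 := h2 x hx
  have a2 := h2 y hy
  simp only [abs_le] at a1 a2
  refine U1.red_inj (L := M) ?_ ?_ e <;> rw [abs_lt] <;> omega

/-- Conditioning on the outer spins. -/
theorem cond {Λ : Finset (ℤ × ℤ)} {T : ℕ} (hΛ : ∀ x ∈ Λ, zd x 0 ≤ T) (hM : 4 * (T + 2) ≤ M)
    (G : (Tor M → Bool) → ℝ) (hG : ∀ s U, G (U1.upd (U1.red M) Λ s U) = G s) (F : Config → ℝ)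
    (hF : ∀ σ σ', (∀ x ∈ Λ, σ x = σ' x) → F σ = F σ') :
    ∑ s, G s * F (per M s) * wt 1 tc (dom s) =
      ∑ s, G s * gibbs 1 0 (fun _ => 0) (Kc / 1) (some (per M s)) Λ F * wt 1 tc (dom s) := by
  have hi := inj_box hΛ hM
  have hV := U1.pot_zero
  have hΛ' : Λ ⊆ U1.firsts (fun _ => 0) Λ ∪ (Λ ∪ U1.seen (fun _ => 0) Λ) := fun x hx => by
    simp [hx]
  obtain ⟨c, hc, hw⟩ : ∃ c : ℝ, 0 < c ∧ ∀ s : Tor M → Bool,
      wt 1 tc (dom s) = c * Real.exp (-(Kc / 1) * U1.tE 1 0 (fun _ => 0) M s) := by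
    refine ⟨(Real.exp (Kc / 1 * 1) ^ Fintype.card (Tor M × Fin 2))⁻¹, by positivity, fun s => ?_⟩
    have h := I1.exp_energyT (J := 1) (lam := 0) (β := Kc / 1) par0 hV (fun B h => absurd rfl h)
      (by simp [par0]) (U4.tc_eq.trans (congrArg Real.exp (by ring))) s
    have e : uint par0 (dom s) = 0 := by simp [uint, par0]
    rw [e, Real.exp_zero, mul_one (wt _ _ _)] at h
    rw [← U1.energyT_eq hV, eq_inv_mul_iff_mul_eq₀ (by positivity)]
    exact h.symm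
  rw [← U1.cond_sum (r := U1.red M) (Λ := Λ) (hi.mono (coe_subset.2 hΛ'))
    (fun s => wt 1 tc (dom s)) (fun s => G s * F (per M s)) fun s => by rw [hw]; positivity]
  refine sum_congr rfl fun s _ => ?_
  congr 1
  have h1 : ∀ U ∈ Λ.powerset, F (per M (U1.upd (U1.red M) Λ s U)) = F (P144.ext Λ (per M s) U) :=
    fun U hU => hF _ _ fun x hx => U1.per_upd hΛ' hi s (mem_powerset.1 hU) (hΛ' hx)
  have h2 : ∀ U ∈ Λ.powerset, wt 1 tc (dom (U1.upd (U1.red M) Λ s U)) =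
      Real.exp (-(Kc / 1) * energy 1 0 (fun _ => 0) (fun A => (A ∩ Λ).Nonempty)
        (P144.ext Λ (per M s) U)) * (c * Real.exp (-(Kc / 1) * U1.rest 1 0 (fun _ => 0) M Λ s)) := by
    intro U hU
    rw [hw, U1.tE_split hV 1 0 M Λ (hi.mono fun x hx => by simp [mem_coe.1 hx])
      (hi.mono (coe_subset.2 fun x hx => by simp only [mem_union] at hx ⊢; tauto)), U1.rest_upd,
      U1.energy_meets_congr hV 1 0 Λ fun x hx =>
        U1.per_upd hΛ' hi s (mem_powerset.1 hU) (by simp [hx]), mul_add, Real.exp_add]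
    ring
  rw [sum_congr rfl fun U hU => by rw [h1 U hU, h2 U hU, hG, ← mul_assoc, mul_assoc (G s)],
    sum_congr rfl h2, ← sum_mul, ← sum_mul, mul_div_mul_right _ _ (by positivity), ← mul_sum,
    mul_div_assoc]
  rfl

omit [NeZero M] in
theorem upd_out {Λ : Finset (ℤ × ℤ)} {u : Tor M} (hu : u ∉ Λ.image (prj M)) (s : Tor M → Bool)
    (U : Finset Site) : U1.upd (U1.red M) Λ s U u = s u := if_neg hu

theorem wt_upd (Λ : Finset (ℤ × ℤ)) (s : Tor M → Bool) (U : Finset Site) :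
    wt (regOf M Λ false).pw 1 (dom (U1.upd (U1.red M) Λ s U)) = wt (regOf M Λ false).pw 1 (dom s) := by
  refine prod_congr rfl fun e _ => ?_
  by_cases h : e.1 ∈ Λ.image (prj M) ∨ oth e ∈ Λ.image (prj M)
  · simp [pw_in h]
  · have h' := not_or.1 h
    have : dom (U1.upd (U1.red M) Λ s U) e = dom s e :=
      congrArg₂ xor (upd_out h'.1 s U) (upd_out h'.2 s U)
    rw [this]

omit [NeZero M] in
theorem prj_out {Λ : Finset (ℤ × ℤ)} {T : ℕ} (hΛ : ∀ x ∈ Λ, zd x 0 ≤ T) (hM : 4 * (T + 2) ≤ M)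
    {a : ℤ × ℤ} (ha : zd a 0 ≤ T) (h : a ∉ Λ) : prj M a ∉ Λ.image (prj M) := by
  intro h1
  obtain ⟨v, hv, e⟩ := mem_image.1 h1
  have h2 := hΛ v hv
  simp only [zd, Prod.fst_zero, Prod.snd_zero, sub_zero, max_le_iff] at h2 ha
  refine h (U1.red_inj (L := M) ?_ ?_ e ▸ hv) <;> rw [abs_lt] <;> omega

/-- A bound uniform in the boundary condition gives a bound on the ratio of the contour sums. -/
theorem plus_le {Λ : Finset (ℤ × ℤ)} {T n H : ℕ} (hΛ : ∀ x ∈ Λ, zd x 0 ≤ T)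
    (hM : 4 * (T + 2) ≤ M) {x : Fin n → ℤ × ℤ} {a : ℤ × ℤ} {hs : Fin H → ℤ × ℤ}
    (S : Finset (Fin H)) (hx : ∀ i, x i ∈ Λ) (ha : prj M a ∉ Λ.image (prj M))
    (hh : ∀ i, prj M (hs i) ∉ Λ.image (prj M)) {K : ℝ}
    (hK : ∀ η, |gibbs 1 0 (fun _ => 0) (Kc / 1) (some η) Λ fun σ => ∏ i, sp (σ (x i))| ≤ K) :
    |Zw par0 ((regOf M Λ false).pw * (spinG M a x * holeG M a hs S)) 1| ≤
      K * |Zw par0 (regOf M Λ false).pw 1| := by
  set P := (regOf M Λ false).pw with hP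
  have hw : ∀ n, wt P tc n = wt P 1 n * wt 1 tc n := fun n => by rw [← I1.wt_mul, mul_one]
  have h0 : ∀ n, 0 ≤ wt P 1 n := wt_nonneg (pw_nonneg Λ) zero_le_one
  have h1 : ∀ n, 0 ≤ wt (1 : Gauge M) tc n := wt_nonneg (fun _ => zero_le_one) tc_pos.le
  set G : (Tor M → Bool) → ℝ := fun s => sp (s (prj M a)) ^ n *
    (∏ i ∈ S, sp (s (prj M a)) * sp (s (prj M (hs i)))) * wt P 1 (dom s) with hG
  have e1 : ∀ s : Tor M → Bool, wt (spinG M a x * holeG M a hs S) 1 (dom s) * wt P tc (dom s) =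
      G s * (∏ i, sp (per M s (x i))) * wt 1 tc (dom s) := by
    intro s
    rw [I1.wt_mul, I1.wt_spinG_dom, wt_holeG, hw]
    simp only [hG, I1.per_eq]
    ring
  rw [Zw_eq (sec_pw hΛ hM), Zw_eq_one (sec_pw hΛ hM), sum_congr rfl fun s _ => e1 s]
  rw [cond hΛ hM G (fun s U => by simp only [hG, hP, upd_out ha, upd_out (hh _), wt_upd])
    (fun σ => ∏ i, sp (σ (x i))) fun σ σ' h => prod_congr rfl fun i _ => by rw [h _ (hx i)],
    abs_mul, abs_mul, mul_left_comm]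
  refine mul_le_mul_of_nonneg_left ((abs_sum_le_sum_abs _ _).trans ?_) (abs_nonneg _)
  rw [abs_of_nonneg (sum_nonneg fun s _ => wt_nonneg (pw_nonneg Λ) tc_pos.le _), mul_sum]
  refine sum_le_sum fun s _ => ?_
  have e2 : |G s| = wt P 1 (dom s) := by
    simp only [hG, abs_mul, abs_pow, abs_prod, U1.abs_sp, one_pow, prod_const_one, one_mul,
      abs_of_nonneg (h0 _)]
  rw [abs_mul, abs_mul, e2, abs_of_nonneg (h1 _), hw, ← mul_assoc, mul_comm K]
  exact mul_le_mul_of_nonneg_right (mul_le_mul_of_nonneg_left (hK _) (h0 _)) (h1 _)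

end H2D

/-- Positivity in the nearest-neighbour model. -/
theorem ratio_nonneg {M : ℕ} [NeZero M] {Λ : Finset (ℤ × ℤ)} {T : ℕ} (hΛ : ∀ x ∈ Λ, zd x 0 ≤ T)
    (hM : 4 * (T + 2) ≤ M) {H : ℕ} (a : ℤ × ℤ) (hs : Fin H → ℤ × ℤ) (S : Finset (Fin H)) :
    0 ≤ Zw par0 ((regOf M Λ false).pw * holeG M a hs S) 1 / Zw par0 (regOf M Λ false).pw 1 := by
  rw [H2D.Zw_eq (H2D.sec_pw hΛ hM), H2D.Zw_eq_one (H2D.sec_pw hΛ hM)]
  refine div_nonneg (mul_nonneg (by norm_num) ?_) (mul_nonneg (by norm_num)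
    (sum_nonneg fun s _ => H2D.wt_nonneg (H2D.pw_nonneg Λ) H2D.tc_pos.le _))
  have h1 := H2D.GK.prod S (fun _ => prj M a) (fun i => prj M (hs i)) (a := fun _ => 0)
    (b := fun _ => 1) (fun _ => le_rfl) (fun _ => zero_le_one) H2D.GK.one
  have h2 := H2D.GK.prod univ (fun e : Tor M × Fin 2 => e.1) oth
    (a := fun e => (1 + tc * (regOf M Λ false).pw e) / 2)
    (b := fun e => (1 - tc * (regOf M Λ false).pw e) / 2) (fun e => ?_) (fun e => ?_) h1
  · refine h2.sum.trans_eq (sum_congr rfl fun s _ => ?_)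
    rw [H2D.wt_holeG, H2D.wt_bond]
    simp only [one_mul, zero_add]
  · rcases H2D.pw_cases (M := M) Λ e with h | h <;> rw [h] <;> linarith [H2D.tc_pos]
  · rcases H2D.pw_cases (M := M) Λ e with h | h <;> rw [h] <;> linarith [H2D.tc_le]

end Vale.Agent.P144Z
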